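import Vale.Agent.P144Z.I2.Part
import Vale.Agent.P144Z.Top
import Vale.Agent.P144Z.E5.Main

/-!
The contour sums as Grassmann integrals, and the free functional.
-/

namespace Vale.Agent.P144Z

open Finset Matrix A1 I2

namespace H1

variable (g : Geo)

/-- The inclusion of the algebra without sources. -/
noncomputable def inc : ((geo0 g.M).S → ℝ) →ₗ[ℝ] (g.S → ℝ) :=
  exL g ∘ₗ LinearMap.funLeft ℝ ℝ Sum.inl

theorem inc_apply (δ : (geo0 g.M).S → ℝ) : inc g δ = g.ex (δ ∘ Sum.inl) := rfl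

theorem inc_single (s : Tor g.M × Fin 4) :
    inc g (Pi.single (Sum.inl s) 1) = Pi.single (Sum.inl s) 1 := by
  rw [inc_apply, ← ex_single]
  congr 1
  funext t
  exact single_inl s t

theorem noF_inc (F : (geo0 g.M).E) :
    g.noF (evG (g.exM (gM g.M)) (evMap (inc g) F)) =
      aug (Ev.val (evG ((geo0 g.M).exM (gM g.M)) F)) • 1 := by
  have h3 : pS g ∘ₗ inc g = 0 := LinearMap.ext fun δ => pS_ex g _
  apply Ev.val_injective
  rw [val_noF, val_evG, val_evMap,
    gauss_map (exM_anti (geo0 g.M) (gM_anti g.M)) (exM_anti g (gM_anti g.M)) (inc g)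
      (mem_loc_univ _), I2.map_map, h3, map_zero_eq, map_smul, map_one, val_evG]
  intro s _ s' _
  rw [inc_apply, inc_apply, ex_exM]
  refine (dot_exM (geo0 g.M) (gM g.M) _ _).symm.trans ?_
  rw [single_one_dotProduct, mulVec_single_one, col_apply]

theorem Om_inc (hA : g.A = 1) (F : (geo0 g.M).E) :
    g.Om (evMap (inc g) F) = aug (Ev.val ((geo0 g.M).Om F)) • 1 := by
  have e : ∀ (x : Tor g.M) (i : Fin 2), evMap (inc g) ((geo0 g.M).edge x i) = g.edge x i := by
    intro x i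
    refine (congrArg (evMap (inc g)) (edge0 g.M x i)).trans ((evMap_pp _ _ _).trans ?_)
    rw [Geo.edge, hA, Pi.one_apply, one_smul]
    exact congrArg₂ pp (inc_single g _) (inc_single g _)
  have e2 : NormedSpace.exp (tc • ∑ e : Tor g.M × Fin 2, g.edge e.1 e.2) = evMap (inc g)
      (NormedSpace.exp (tc • ∑ e : Tor g.M × Fin 2, (geo0 g.M).edge e.1 e.2)) := by
    rw [hom_exp _ (evMap_one _) (evMap_mul _), map_smul, map_sum]
    simp only [e]
  rw [Geo.Om, e2, ← evMap_mul, noF_inc, Geo.Om, val_noF, aug_map]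
  rfl

theorem del_del_even {S : Type} [Fintype S] (a b : S → ℝ) {F : Gr S} (hF : F ∈ evenS S) :
    del b (del a F) ∈ evenS S := by
  rw [mem_even_iff] at hF ⊢
  rw [inv_del, inv_del, hF, map_neg, neg_neg]

theorem val_dz (F : g.E) : Ev.val (g.dz F) = ExteriorAlgebra.map (pS g)
    (del (g.ex (zm g.M 1)) (del (g.ex (zm g.M 0)) (Ev.val F))) := by
  rw [Geo.dz, val_noF, val_toEv (del_del_even _ _ (Ev.val_mem F))]

theorem ker_per (M : ℕ) [NeZero M] (φ : Tor M × Fin 4 → ℝ) (h : Dm (1 : Gauge M) *ᵥ φ = 0) :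
    φ = (zm M 0 ⬝ᵥ φ) • zm M 0 + (zm M 1 ⬝ᵥ φ) • zm M 1 := by
  obtain ⟨C, -, hC⟩ := gap_per
  have h1 := (hC M).2.2 φ
  rw [h, Fin.sum_univ_two] at h1
  have h2 : l2sq univ (0 : Tor M × Fin 4 → ℝ) = 0 := by simp [l2sq]
  rw [h2, mul_zero, l2sq] at h1
  funext s
  have h3 := (Finset.sum_eq_zero_iff_of_nonneg fun x _ =>
    Finset.sum_nonneg fun a _ => sq_nonneg _).1 (le_antisymm h1 (Finset.sum_nonneg fun x _ =>
      Finset.sum_nonneg fun a _ => sq_nonneg _)) s.1 (Finset.mem_univ _)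
  have h4 := (Finset.sum_eq_zero_iff_of_nonneg fun a _ => sq_nonneg _).1 h3 s.2 (Finset.mem_univ _)
  exact sub_eq_zero.1 (pow_eq_zero_iff two_ne_zero |>.1 h4)

end H1

open H1

/-- The signed contour sum is a Grassmann integral. -/
theorem sum_cw_eq (g : Geo) (q : Par) (hZ : q.Z ≠ 0) (F : g.Cfg → g.E)
    (hF : ∀ n, g.noF (F n) = F n) :
    ∑ n, (cw n * wt g.A q.x n) • F n = (q.Z ^ (2 * g.M ^ 2))⁻¹ •
      g.Om (NormedSpace.exp (∑ x, (g.init q).v x) * g.E0 (q.x * q.Z) F) := by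
  have := contour g q.x hZ F hF
  refine Eq.symm ((congrArg _ this).trans ?_)
  rw [smul_smul, inv_mul_cancel₀ (pow_ne_zero _ hZ), one_smul]

/-- The free functional is Gaussian when the operator is invertible. -/
theorem Om_inv (g : Geo) (hD : ∀ v, Dm g.A *ᵥ v = 0 → v = 0) (G : g.E) :
    g.Om G = Zw par0 g.A 1 • g.noF (evG (g.exM (covI (Dm g.A))) G) := by
  rw [I2.Om_inv g hD, Om_one, mul_smul_comm, mul_one]
  rfl

/-- The periodic sector. -/
theorem Om_per (g : Geo) (hA : g.A = 1) (G : g.E) :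
    g.Om G = kap g.M • g.dz (evG (g.exM (covI (Dm g.A))) G) := by
  obtain ⟨C, -, hC⟩ := gap_per
  obtain ⟨h1, h2, -⟩ := hC g.M
  have e : g.Om (pp (g.ex (zm g.M 0)) (g.ex (zm g.M 1))) = kap g.M • 1 := by
    rw [kap, ← Om_inc g hA, evMap_pp]
    rfl
  apply Ev.val_injective
  rw [val_Om, Om_zero g (zm g.M 0) (zm g.M 1) (by simpa using h2 0 0) (by simpa using h2 1 1)
    (by simpa using h2 0 1) (hA ▸ h1 0) (hA ▸ h1 1) (hA ▸ ker_per g.M), ← val_pp, ← val_Om, e,
    map_smul, map_smul, map_one, mul_smul_comm, mul_one, val_dz, val_evG, gauss_del, gauss_del]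

theorem Zw_per (M : ℕ) [NeZero M] : Zw par0 (1 : Gauge M) 1 = 0 := by
  have h := congrArg (fun F => aug (Ev.val F)) (Om_per (geo0 M) rfl 1)
  simp only [Om_one, map_smul, map_one, val_dz, val_evG, gauss_one, del_one, map_zero, smul_eq_mul,
    mul_one, mul_zero] at h
  exact h

end Vale.Agent.P144Z
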